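import Vale.Agent.P214.WIN.Props

/-!
# P214, block STEP-R: the step at radius `r`, exact statement

`StepRStmt` is `WIN.StepStmt` at every radius `0 < r ≤ 3/16`, for references which vanish at the
origin.  It is proved in `STR/Main.lean` from `WIN.StepStmt`.  Here `θ` is a relative collar.
-/

open Set Filter Topology MeasureTheory Metric
open scoped RealInnerProductSpace ENNReal ContDiff

namespace Vale.Agent.P214.STR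

open WIN

noncomputable section

variable {m n : ℕ}

/-- vector valued test functions of the base variable, supported in the ball of radius `ρ`, with
derivatives measured at scale `r` -/
structure TstR (K : ℕ) (r ρ M : ℝ) (φ : Fin n → REF.E m → ℝ) : Prop where
  smooth : ∀ a, ContDiff ℝ ∞ (φ a)
  supp : ∀ a x, ρ ≤ ‖x‖ → φ a x = 0
  bd : ∀ a, ∀ k ≤ K, ∀ x, ‖iteratedFDeriv ℝ k (φ a) x‖ ≤ M * r⁻¹ ^ k

variable {E : Type*} [NormedAddCommGroup E] [InnerProductSpace ℝ E] [FiniteDimensional ℝ E]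
  [MeasurableSpace E] [BorelSpace E]

/-- scale invariant squared height `t^{-(m+2)} ∫_{C_t} |v|² dν` -/
def hN (m : ℕ) (T : Submodule ℝ E) (w : E → E) (ν : Measure E) (t : ℝ) : ℝ :=
  (t ^ (m + 2))⁻¹ * hE T w ν t

/-- the output of one step at radius `r`: `u'` is the new reference -/
structure StepOut (m n Q : ℕ) (T : Submodule ℝ E) (F : Frame m n T) (u u' : Fin n → REF.E m → ℝ)
    (c₀ c₁ τ r h θ : ℝ) (ν : Measure E) (P : E → E →L[ℝ] E) : Prop where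
  smooth : ∀ a, ContDiff ℝ ∞ (u' a)
  outside : ∀ a x, r ≤ ‖x‖ → u' a x = u a x
  size : ∀ a, ∀ k ≤ sW m, ∀ x, ‖iteratedFDeriv ℝ k (fun x => u' a x - u a x) x‖
    ≤ r * r⁻¹ ^ k * h ^ (1 / 2 - c₁ / c₀)
  exact : ∀ a x, ‖x‖ < r * (1 - 5 * θ) → REF.Mop u' a x = 0
  weak : ∀ (φ : Fin n → REF.E m → ℝ) (M : ℝ), TstR (sW m) r (r * (1 - 5 * θ)) M φ →
    |∫ y, ∑ a, φ a (F.xc y) * F.ht u' a y ∂ν| ≤ r ^ (m + 1) * h ^ (1 - c₁ / c₀) * M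
  points : ∃ Bad : Set E, MeasurableSet Bad ∧
    μH[m] (Bad ∩ (T : Set E)) + ν (T.starProjection ⁻¹' Bad) ≤ ENNReal.ofReal (h ^ c₀ * r ^ m) ∧
    (∀ x ∈ T, x ∉ Bad → ∀ s, 0 < s → ‖x‖ + s < r * (1 - 7 * θ) →
      Skel.exc T ν P x s ≤ τ * s ^ m) ∧
    ∀ z ∈ ν.support, ‖T.starProjection z‖ < r * (1 - 7 * θ) → T.starProjection z ∉ Bad →
      HighD m Q T ν r z → ‖KMS.rel T (F.lift u') z‖ ≤ r * h ^ (1 / 2 + c₀)

/-- **[STEP-R]** -/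
def StepRStmt (E : Type*) [NormedAddCommGroup E] [InnerProductSpace ℝ E] [FiniteDimensional ℝ E]
    [MeasurableSpace E] [BorelSpace E] (m n Q : ℕ) : Prop :=
  ∃ c₀ : ℝ, 0 < c₀ ∧ c₀ ≤ 1 / 8 ∧ ∀ c₁ : ℝ, 0 < c₁ → c₁ ≤ c₀ ^ 2 → ∀ τ : ℝ, 0 < τ →
    ∃ ε : ℝ, 0 < ε ∧ ε ≤ 1 ∧
    ∀ (T : Submodule ℝ E) (F : Frame m n T) (u : Fin n → REF.E m → ℝ) (r h θ : ℝ)
      (ν : Measure E) (P : E → E →L[ℝ] E),
    Refe ε r u → (∀ a, u a 0 = 0) → 0 < r → r ≤ 3 / 16 →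
    Skel.IntCyl m Q T 0 (2 * r) (ε * r) ε ν P → Skel.exc T ν P 0 (2 * r) ≤ ε * r ^ m →
    h = hN m T (F.lift u) ν r → 0 < h → h ≤ ε → h ^ c₁ ≤ θ → θ ≤ 1 / 120 →
    (∀ (ψ : REF.E m → ℝ) (M : ℝ), Continuous ψ → (∀ x, r * (1 - 5 * θ) ≤ ‖x‖ → ψ x = 0) →
      (∀ x, |ψ x| ≤ M) → |∫ y, ψ (F.xc y) ∂ν - Q * ∫ x, ψ x * √(REF.gm u x).det ∂μH[m]|
        ≤ r ^ m * h ^ (1 / 2 - c₁ / c₀) * M) ∧
    ∃ u' : Fin n → REF.E m → ℝ, StepOut m n Q T F u u' c₀ c₁ τ r h θ ν P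

/-- scaled reference: smallness in scaled norms over the double ball only -/
structure RefS (ε r : ℝ) (u : Fin n → REF.E m → ℝ) : Prop where
  smooth : ∀ a, ContDiff ℝ ∞ (u a)
  zero : ∀ a, u a 0 = 0
  small : ∀ a, ∀ k ≤ sW m, 1 ≤ k → ∀ x, ‖x‖ ≤ 2 * r →
    ‖iteratedFDeriv ℝ k (u a) x‖ ≤ ε * (r * r⁻¹ ^ k)
  exact : ∀ a x, ‖x‖ < r → REF.Mop u a x = 0

/-- **[STEP-RS]**: STEP-R for scaled references (only scale invariant smallness is needed) -/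
def StepRSStmt (E : Type*) [NormedAddCommGroup E] [InnerProductSpace ℝ E] [FiniteDimensional ℝ E]
    [MeasurableSpace E] [BorelSpace E] (m n Q : ℕ) : Prop :=
  ∃ c₀ : ℝ, 0 < c₀ ∧ c₀ ≤ 1 / 8 ∧ ∀ c₁ : ℝ, 0 < c₁ → c₁ ≤ c₀ ^ 2 → ∀ τ : ℝ, 0 < τ →
    ∃ ε : ℝ, 0 < ε ∧ ε ≤ 1 ∧
    ∀ (T : Submodule ℝ E) (F : Frame m n T) (u : Fin n → REF.E m → ℝ) (r h θ : ℝ)
      (ν : Measure E) (P : E → E →L[ℝ] E),
    RefS ε r u → 0 < r →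
    Skel.IntCyl m Q T 0 (2 * r) (ε * r) ε ν P → Skel.exc T ν P 0 (2 * r) ≤ ε * r ^ m →
    h = hN m T (F.lift u) ν r → 0 < h → h ≤ ε → h ^ c₁ ≤ θ → θ ≤ 1 / 120 →
    (∀ (ψ : REF.E m → ℝ) (M : ℝ), Continuous ψ → (∀ x, r * (1 - 5 * θ) ≤ ‖x‖ → ψ x = 0) →
      (∀ x, |ψ x| ≤ M) → |∫ y, ψ (F.xc y) ∂ν - Q * ∫ x, ψ x * √(REF.gm u x).det ∂μH[m]|
        ≤ r ^ m * h ^ (1 / 2 - c₁ / c₀) * M) ∧
    ∃ u' : Fin n → REF.E m → ℝ, StepOut m n Q T F u u' c₀ c₁ τ r h θ ν P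

end

end Vale.Agent.P214.STR
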