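import Vale.Agent.P214.WIN.Props
import Vale.Agent.P214.SCALE.Int

/-!
# P214, block STEP-R: how the objects of `WIN.Props` behave under dilations around the origin

`sc t f x = t⁻¹ * f (t • x)`; `dd t d x = t * d (t⁻¹ • x)` (pull back of an increment).
-/

open Set Filter Topology MeasureTheory Metric
open scoped RealInnerProductSpace ENNReal ContDiff

set_option linter.all false

namespace Vale.Agent.P214.STR

open WIN

noncomputable section

variable {m n : ℕ}

/-! ### functions on `ℝ^m` -/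

/-- dilation of a height function -/
def sc (t : ℝ) (f : REF.E m → ℝ) (x : REF.E m) : ℝ := t⁻¹ * f (t • x)

/-- pull back of an increment -/
def dd (t : ℝ) (f : REF.E m → ℝ) (x : REF.E m) : ℝ := t * f (t⁻¹ • x)

lemma dd_eq (t : ℝ) (f : REF.E m → ℝ) : dd t f = sc t⁻¹ f := by
  funext x; simp [dd, sc]

lemma contDiff_sc {t : ℝ} {f : REF.E m → ℝ} (hf : ContDiff ℝ ∞ f) : ContDiff ℝ ∞ (sc t f) :=
  contDiff_const.mul (hf.comp (contDiff_id.const_smul t))

lemma contDiff_dd {t : ℝ} {f : REF.E m → ℝ} (hf : ContDiff ℝ ∞ f) : ContDiff ℝ ∞ (dd t f) := by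
  rw [dd_eq]; exact contDiff_sc hf

lemma norm_iter_sc {t : ℝ} (ht : 0 < t) {f : REF.E m → ℝ} (hf : ContDiff ℝ ∞ f) (k : ℕ)
    (x : REF.E m) : ‖iteratedFDeriv ℝ k (sc t f) x‖ = t⁻¹ * t ^ k *
      ‖iteratedFDeriv ℝ k f (t • x)‖ := by
  have hk : ContDiff ℝ k f := hf.of_le (by exact_mod_cast le_top)
  have h1 : sc t f = fun x => t⁻¹ • (fun z => f (t • z)) x := by
    funext x; simp [sc]
  have h2 : ContDiff ℝ k (fun z => f (t • z)) := hk.comp (contDiff_id.const_smul t)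
  rw [h1, iteratedFDeriv_const_smul_apply' h2.contDiffAt, iteratedFDeriv_comp_const_smul t hk,
    norm_smul, norm_smul, Real.norm_eq_abs, Real.norm_eq_abs, abs_of_pos (inv_pos.2 ht),
    abs_of_pos (pow_pos ht k), mul_assoc]

lemma norm_iter_dd {t : ℝ} (ht : 0 < t) {f : REF.E m → ℝ} (hf : ContDiff ℝ ∞ f) (k : ℕ)
    (x : REF.E m) : ‖iteratedFDeriv ℝ k (dd t f) x‖ = t * t⁻¹ ^ k *
      ‖iteratedFDeriv ℝ k f (t⁻¹ • x)‖ := by
  rw [dd_eq, norm_iter_sc (inv_pos.2 ht) hf, inv_inv]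

lemma pd_sc {t : ℝ} (ht : t ≠ 0) {f : REF.E m → ℝ} (i : Fin m) (x : REF.E m) :
    REF.pd i (sc t f) x = REF.pd i f (t • x) := by
  unfold REF.pd sc
  have h1 : fderiv ℝ (fun x : REF.E m => t⁻¹ * f (t • x)) x
      = t⁻¹ • fderiv ℝ (fun x : REF.E m => f (t • x)) x := by
    have h2 : (fun x : REF.E m => t⁻¹ * f (t • x)) = t⁻¹ • (fun x : REF.E m => f (t • x)) := rfl
    rw [h2, fderiv_const_smul_field]
    rfl
  rw [h1, fderiv_comp_smul, smul_smul, inv_mul_cancel₀ ht, one_smul]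

lemma pd_pd_sc {t : ℝ} (ht : t ≠ 0) {f : REF.E m → ℝ} (i j : Fin m) (x : REF.E m) :
    REF.pd i (REF.pd j (sc t f)) x = t * REF.pd i (REF.pd j f) (t • x) := by
  have h1 : REF.pd j (sc t f) = fun x => REF.pd j f (t • x) := by
    funext x; exact pd_sc ht j x
  rw [h1]
  have h2 : fderiv ℝ (fun x : REF.E m => REF.pd j f (t • x)) x
      = t • fderiv ℝ (REF.pd j f) (t • x) := fderiv_comp_smul (f := REF.pd j f) t
  change fderiv ℝ (fun x : REF.E m => REF.pd j f (t • x)) x (REF.bs i) = _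
  rw [h2]
  rfl

lemma gm_sc {t : ℝ} (ht : t ≠ 0) (u : Fin n → REF.E m → ℝ) (x : REF.E m) :
    REF.gm (fun a => sc t (u a)) x = REF.gm u (t • x) := by
  unfold REF.gm
  simp only [pd_sc ht]

/-- **the minimal surface operator under dilations** -/
lemma Mop_sc {t : ℝ} (ht : t ≠ 0) (u : Fin n → REF.E m → ℝ) (a : Fin n) (x : REF.E m) :
    REF.Mop (fun a => sc t (u a)) a x = t * REF.Mop u a (t • x) := by
  unfold REF.Mop
  rw [gm_sc ht, Finset.mul_sum]
  refine Finset.sum_congr rfl fun i _ => ?_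
  rw [Finset.mul_sum]
  refine Finset.sum_congr rfl fun j _ => ?_
  rw [pd_pd_sc ht]
  ring

/-- the minimal surface operator is local -/
lemma Mop_congr {u v : Fin n → REF.E m → ℝ} {x : REF.E m} (h : ∀ a, u a =ᶠ[𝓝 x] v a)
    (a : Fin n) : REF.Mop u a x = REF.Mop v a x := by
  have h1 : ∀ i b, REF.pd i (u b) x = REF.pd i (v b) x := fun i b => by
    unfold REF.pd; rw [(h b).fderiv_eq]
  have h2 : ∀ i j b, REF.pd i (REF.pd j (u b)) x = REF.pd i (REF.pd j (v b)) x := fun i j b => by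
    have h3 : REF.pd j (u b) =ᶠ[𝓝 x] REF.pd j (v b) := by
      filter_upwards [(h b).eventuallyEq_nhds] with y hy
      unfold REF.pd; rw [hy.fderiv_eq]
    unfold REF.pd at h3 ⊢
    rw [h3.fderiv_eq]
  unfold REF.Mop REF.gm
  simp only [h1, h2]

/-- `Mop` only sees derivatives: adding constants changes nothing -/
lemma Mop_add_const (u : Fin n → REF.E m → ℝ) (c : Fin n → ℝ) (a : Fin n) (x : REF.E m) :
    REF.Mop (fun a x => u a x + c a) a x = REF.Mop u a x := by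
  have h1 : ∀ i b, REF.pd i (fun x => u b x + c b) = REF.pd i (u b) := fun i b => by
    funext y; unfold REF.pd; rw [fderiv_add_const]
  unfold REF.Mop REF.gm
  simp only [h1]

/-! ### the frame -/

variable {E : Type*} [NormedAddCommGroup E] [InnerProductSpace ℝ E] [FiniteDimensional ℝ E]
  {T : Submodule ℝ E}

lemma xc_smul (F : Frame m n T) (t : ℝ) (y : E) : F.xc (t • y) = t • F.xc y := by
  unfold Frame.xc; simp

lemma norm_xc (F : Frame m n T) (y : E) : ‖F.xc y‖ = ‖T.starProjection y‖ := by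
  unfold Frame.xc
  rw [LinearIsometryEquiv.norm_map]
  rfl

lemma xc_add (F : Frame m n T) (y z : E) : F.xc (y + z) = F.xc y + F.xc z := by
  unfold Frame.xc; simp

lemma xc_sub (F : Frame m n T) (y z : E) : F.xc (y - z) = F.xc y - F.xc z := by
  unfold Frame.xc; simp

lemma continuous_xc (F : Frame m n T) : Continuous F.xc := by
  unfold Frame.xc
  exact F.bT.repr.continuous.comp T.orthogonalProjectionOnto.continuous

lemma lift_congr (F : Frame m n T) {u v : Fin n → REF.E m → ℝ} {y : E}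
    (h : ∀ a, u a (F.xc y) = v a (F.xc y)) : F.lift u y = F.lift v y := by
  unfold Frame.lift; simp only [h]

lemma rel_congr (F : Frame m n T) {u v : Fin n → REF.E m → ℝ} {y : E}
    (h : ∀ a, u a (F.xc y) = v a (F.xc y)) :
    KMS.rel T (F.lift u) y = KMS.rel T (F.lift v) y := by
  unfold KMS.rel; rw [lift_congr F h]

lemma lift_sc (F : Frame m n T) {t : ℝ} (ht : t ≠ 0) (u : Fin n → REF.E m → ℝ) (y : E) :
    F.lift (fun a => sc t (u a)) (t⁻¹ • y) = t⁻¹ • F.lift u y := by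
  unfold Frame.lift
  rw [Finset.smul_sum]
  refine Finset.sum_congr rfl fun a _ => ?_
  simp only [xc_smul, sc, smul_smul, mul_inv_cancel₀ ht, one_smul]

lemma rel_sc (F : Frame m n T) {t : ℝ} (ht : t ≠ 0) (u : Fin n → REF.E m → ℝ) (y : E) :
    KMS.rel T (F.lift (fun a => sc t (u a))) (t⁻¹ • y) = t⁻¹ • KMS.rel T (F.lift u) y := by
  unfold KMS.rel
  rw [lift_sc F ht, map_smul, smul_sub]

lemma ht_sc (F : Frame m n T) {t : ℝ} (ht : t ≠ 0) (u : Fin n → REF.E m → ℝ) (a : Fin n)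
    (y : E) : F.ht (fun a => sc t (u a)) a (t⁻¹ • y) = t⁻¹ * F.ht u a y := by
  unfold Frame.ht
  simp only [xc_smul, sc, smul_smul, mul_inv_cancel₀ ht, one_smul, inner_smul_right]
  ring

/-! ### the dilated measure -/

variable [MeasurableSpace E] [BorelSpace E]

open SCALE

lemma dil_zero (l : ℝ) (y : E) : dil (0 : E) l y = l • y := by simp [dil]

/-- the blow-up of `ν` by the factor `t⁻¹` -/
abbrev bu (m : ℕ) (t : ℝ) (ν : Measure E) : Measure E := dilM m (0 : E) t⁻¹ ν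

/-- the field of planes of the blow-up -/
abbrev buP (t : ℝ) (P : E → E →L[ℝ] E) : E → E →L[ℝ] E := dilP (0 : E) t⁻¹ P

lemma cylSet_pre (T : Submodule ℝ E) {t : ℝ} (ht : 0 < t) (z : E) (R : ℝ) :
    dil (0 : E) t⁻¹ ⁻¹' Skel.cylSet T z R = Skel.cylSet T (t • z) (t * R) := by
  ext y
  have h1 : dil (0:E) t⁻¹ y = t⁻¹ • y := dil_zero _ _
  simp only [mem_preimage, Skel.cylSet, mem_setOf_eq, mem_ball, dist_eq_norm, h1, map_smul]
  have h2 : T.starProjection y - t • z = t • (t⁻¹ • T.starProjection y - z) := by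
    rw [smul_sub, smul_smul, mul_inv_cancel₀ ht.ne', one_smul]
  rw [h2, norm_smul, Real.norm_eq_abs, abs_of_pos ht]
  constructor
  · intro h; exact mul_lt_mul_of_pos_left h ht
  · intro h; exact lt_of_mul_lt_mul_left h ht.le

/-- integrals for the blow-up over a cylinder -/
lemma setInt_bu {F : Type*} [NormedAddCommGroup F] [NormedSpace ℝ F] {t : ℝ} (ht : 0 < t)
    (ν : Measure E) (z : E) (R : ℝ) (f : E → F) :
    ∫ y in Skel.cylSet T z R, f y ∂(bu m t ν) =
      t⁻¹ ^ m • ∫ y in Skel.cylSet T (t • z) (t * R), f (t⁻¹ • y) ∂ν := by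
  rw [setIntegral_dilM m (inv_pos.2 ht), cylSet_pre T ht]
  simp only [dil_zero]

lemma int_bu {F : Type*} [NormedAddCommGroup F] [NormedSpace ℝ F] {t : ℝ} (ht : 0 < t)
    (ν : Measure E) (f : E → F) :
    ∫ y, f y ∂(bu m t ν) = t⁻¹ ^ m • ∫ y, f (t⁻¹ • y) ∂ν := by
  rw [integral_dilM m (inv_pos.2 ht)]
  simp only [dil_zero]

/-- the squared height under dilations (local form) -/
lemma hE_bu (F : Frame m n T) {t : ℝ} (ht : 0 < t) (u v : Fin n → REF.E m → ℝ) (ν : Measure E)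
    {R : ℝ} (h : ∀ a x, ‖x‖ < R → v a x = sc t (u a) x) :
    hE T (F.lift v) (bu m t ν) R = t⁻¹ ^ (m + 2) * hE T (F.lift u) ν (t * R) := by
  unfold hE
  rw [setInt_bu ht, smul_zero, smul_eq_mul]
  have h1 : ∫ y in Skel.cylSet T 0 (t * R), ‖KMS.rel T (F.lift v) (t⁻¹ • y)‖ ^ 2 ∂ν
      = ∫ y in Skel.cylSet T 0 (t * R), t⁻¹ ^ 2 * ‖KMS.rel T (F.lift u) y‖ ^ 2 ∂ν := by
    refine setIntegral_congr_fun ?_ fun y hy => ?_
    · exact (isOpen_ball.preimage T.starProjection.continuous).measurableSet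
    · have h2 : ‖F.xc (t⁻¹ • y)‖ < R := by
        rw [xc_smul, norm_smul, norm_xc, Real.norm_eq_abs, abs_of_pos (inv_pos.2 ht)]
        have : ‖T.starProjection y‖ < t * R := by
          simpa [Skel.cylSet] using hy
        calc t⁻¹ * ‖T.starProjection y‖ < t⁻¹ * (t * R) :=
              mul_lt_mul_of_pos_left this (inv_pos.2 ht)
          _ = R := by rw [← mul_assoc, inv_mul_cancel₀ ht.ne', one_mul]
      rw [rel_congr F (v := fun a => sc t (u a)) fun a => h a _ h2, rel_sc F ht.ne', norm_smul,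
        Real.norm_eq_abs, abs_of_pos (inv_pos.2 ht), mul_pow]
  rw [h1, integral_const_mul, pow_add]
  ring

/-- densities under dilations -/
lemma ratio_bu {t : ℝ} (ht : 0 < t) (ν : Measure E) (z : E) (s : ℝ) :
    ratio m (bu m t ν) (t⁻¹ • z) (t⁻¹ * s) = ratio m ν z s := by
  unfold ratio
  rw [int_bu ht, smul_eq_mul]
  have h1 : ∀ y : E, cut (t⁻¹ • z) (t⁻¹ * s) (t⁻¹ • y) = cut z s y := by
    intro y
    unfold cut
    rw [← smul_sub, norm_smul, Real.norm_eq_abs, abs_of_pos (inv_pos.2 ht), mul_pow, mul_pow,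
      mul_div_mul_left _ _ (pow_pos (inv_pos.2 ht) 2).ne']
  simp only [h1]
  rw [mul_pow, mul_div_mul_left _ _ (pow_pos (inv_pos.2 ht) m).ne']

lemma support_bu {t : ℝ} (ht : 0 < t) {ν : Measure E} {z : E} (hz : z ∈ ν.support) :
    t⁻¹ • z ∈ (bu m t ν).support := by
  rw [Measure.mem_support_iff_forall] at hz ⊢
  intro U hU
  rw [dilM_apply m (inv_pos.2 ht)]
  have h1 : dil (0:E) t⁻¹ ⁻¹' U ∈ 𝓝 z := by
    refine (continuous_dil (0:E) t⁻¹).continuousAt.preimage_mem_nhds ?_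
    rw [dil_zero]; exact hU
  exact ENNReal.mul_pos (by simpa using pow_pos ht m) (hz _ h1).ne'

lemma HighD_bu {Q : ℕ} {t : ℝ} (ht : 0 < t) {ν : Measure E} {R : ℝ} {z : E}
    (h : HighD m Q T ν (t * R) z) : HighD m Q T (bu m t ν) R (t⁻¹ • z) := by
  intro s hs hsR
  have h1 := h (t * s) (mul_pos ht hs) ?_
  · have h2 := ratio_bu (m := m) ht ν z (t * s)
    rw [← mul_assoc, inv_mul_cancel₀ ht.ne', one_mul] at h2
    rw [h2]; exact h1
  · rw [map_smul, norm_smul, Real.norm_eq_abs, abs_of_pos (inv_pos.2 ht)] at hsR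
    have h3 : t * (t⁻¹ * ‖T.starProjection z‖ + s) < t * R := mul_lt_mul_of_pos_left hsR ht
    rwa [mul_add, ← mul_assoc, mul_inv_cancel₀ ht.ne', one_mul] at h3

lemma intCyl_bu {Q : ℕ} {t : ℝ} (ht : 0 < t) {ν : Measure E} {P : E → E →L[ℝ] E} {R h δ : ℝ}
    (hI : Skel.IntCyl m Q T 0 (t * R) (t * h) δ ν P) :
    Skel.IntCyl m Q T 0 R h δ (bu m t ν) (buP t P) := by
  have h1 := intCyl_dil_mem (inv_pos.2 ht) T.zero_mem hI
  rw [dil_zero, smul_zero, ← mul_assoc, inv_mul_cancel₀ ht.ne', one_mul, ← mul_assoc,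
    inv_mul_cancel₀ ht.ne', one_mul] at h1
  exact h1

lemma exc_bu {t : ℝ} (ht : 0 < t) (ν : Measure E) (P : E → E →L[ℝ] E) (z : E) (R : ℝ) :
    Skel.exc T (bu m t ν) (buP t P) (t⁻¹ • z) R = t⁻¹ ^ m * Skel.exc T ν P z (t * R) := by
  have h1 := exc_dil T m 0 (inv_pos.2 ht) ν P z (t * R)
  rw [map_zero, dil_zero, ← mul_assoc, inv_mul_cancel₀ ht.ne', one_mul] at h1
  exact h1

end

end Vale.Agent.P214.STR
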