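import Vale.Agent.P214.STR.Scale
import Vale.Agent.P214.STR.Props

/-!
# P214, block STEP-R: the cut-off dilation of a reference
-/

open Set Filter Topology MeasureTheory Metric
open scoped RealInnerProductSpace ENNReal ContDiff

set_option linter.all false

namespace Vale.Agent.P214.STR

open WIN

noncomputable section

variable {m n : ℕ}

/-- the cut-off -/
def bc (m : ℕ) : ContDiffBump (0 : REF.E m) := ⟨9 / 32, 3 / 8, by norm_num, by norm_num⟩

lemma bc_one {x : REF.E m} (hx : ‖x‖ ≤ 9 / 32) : bc m x = 1 :=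
  (bc m).one_of_mem_closedBall (by simpa [bc] using hx)

lemma bc_zero {x : REF.E m} (hx : 3 / 8 ≤ ‖x‖) : bc m x = 0 :=
  (bc m).zero_of_le_dist (by simpa [bc] using hx)

lemma exists_bc_bound (m : ℕ) : ∃ K : ℝ, 1 ≤ K ∧ ∀ k ≤ sW m, ∀ x : REF.E m,
    ‖iteratedFDeriv ℝ k (bc m) x‖ ≤ K := by
  have h1 : ∀ k : ℕ, ∃ K : ℝ, ∀ x : REF.E m, ‖iteratedFDeriv ℝ k (bc m) x‖ ≤ K := by
    intro k
    have hc : Continuous (iteratedFDeriv ℝ k (bc m)) :=
      ((bc m).contDiff (n := (⊤ : ℕ∞))).continuous_iteratedFDeriv (by exact_mod_cast le_top)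
    have hs : HasCompactSupport (iteratedFDeriv ℝ k (bc m)) :=
      (bc m).hasCompactSupport.iteratedFDeriv k
    obtain ⟨K, hK⟩ := hc.bounded_above_of_compact_support hs
    exact ⟨K, hK⟩
  choose K hK using h1
  refine ⟨1 + ∑ k ∈ Finset.range (sW m + 1), |K k|, ?_, fun k hk x => ?_⟩
  · have : 0 ≤ ∑ k ∈ Finset.range (sW m + 1), |K k| := Finset.sum_nonneg fun _ _ => abs_nonneg _
    linarith
  · have h2 : |K k| ≤ ∑ k ∈ Finset.range (sW m + 1), |K k| :=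
      Finset.single_le_sum (f := fun k => |K k|) (fun _ _ => abs_nonneg _)
        (Finset.mem_range.2 (Nat.lt_succ_of_le hk))
    linarith [hK k x, le_abs_self (K k)]

lemma iter_bc_zero (k : ℕ) {x : REF.E m} (hx : 3 / 8 < ‖x‖) :
    iteratedFDeriv ℝ k (bc m) x = 0 := by
  have h1 := support_iteratedFDeriv_subset (𝕜 := ℝ) (f := (bc m : REF.E m → ℝ)) k
  by_contra hne
  have h2 : x ∈ tsupport (bc m : REF.E m → ℝ) := h1 hne
  rw [(bc m).tsupport_eq] at h2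
  have h3 : ‖x‖ ≤ 3 / 8 := by simpa [bc] using h2
  linarith

/-- products with the cut-off -/
lemma bound_cut (m : ℕ) : ∃ K : ℝ, 1 ≤ K ∧ ∀ (f : REF.E m → ℝ) (ε : ℝ), ContDiff ℝ ∞ f → 0 ≤ ε →
    (∀ k ≤ sW m, ∀ x, ‖x‖ ≤ 3 / 8 → ‖iteratedFDeriv ℝ k f x‖ ≤ ε) →
    ∀ k ≤ sW m, ∀ x, ‖iteratedFDeriv ℝ k (fun x => bc m x * f x) x‖ ≤ K * ε := by
  obtain ⟨K, hK1, hK⟩ := exists_bc_bound m
  refine ⟨2 ^ sW m * K, ?_, fun f ε hf hε hb k hk x => ?_⟩
  · have : (1:ℝ) ≤ 2 ^ sW m := one_le_pow₀ (by norm_num)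
    nlinarith
  · have h1 := norm_iteratedFDeriv_mul_le (𝕜 := ℝ) (f := (bc m : REF.E m → ℝ)) (g := f)
      (N := ∞) ((bc m).contDiff (n := (⊤ : ℕ∞))) hf x (n := k) (by exact_mod_cast le_top)
    refine h1.trans ?_
    by_cases hx : ‖x‖ ≤ 3 / 8
    · calc ∑ i ∈ Finset.range (k + 1), (k.choose i : ℝ) * ‖iteratedFDeriv ℝ i (bc m) x‖
            * ‖iteratedFDeriv ℝ (k - i) f x‖
          ≤ ∑ i ∈ Finset.range (k + 1), (k.choose i : ℝ) * (K * ε) := by
            refine Finset.sum_le_sum fun i hi => ?_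
            rw [mul_assoc]
            refine mul_le_mul_of_nonneg_left ?_ (Nat.cast_nonneg _)
            have hik : i ≤ k := Nat.lt_succ_iff.1 (Finset.mem_range.1 hi)
            exact mul_le_mul (hK i (hik.trans hk) x) (hb _ ((Nat.sub_le _ _).trans hk) x hx)
              (norm_nonneg _) (by linarith)
        _ = 2 ^ k * (K * ε) := by
            rw [← Finset.sum_mul]
            congr 1
            exact_mod_cast Nat.sum_range_choose k
        _ ≤ 2 ^ sW m * (K * ε) := by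
            refine mul_le_mul_of_nonneg_right (pow_le_pow_right₀ (by norm_num) hk) ?_
            exact mul_nonneg (by linarith) hε
        _ = _ := by ring
    · have h2 : ∀ i, iteratedFDeriv ℝ i (bc m) x = 0 := fun i => iter_bc_zero i (not_le.1 hx)
      simp only [h2, norm_zero, mul_zero, zero_mul, Finset.sum_const_zero]
      have : (0:ℝ) ≤ 2 ^ sW m * K := by positivity
      exact mul_nonneg this hε

/-- smallness of the dilation of a function which vanishes at the origin -/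
lemma sc_small {f : REF.E m → ℝ} {t ε : ℝ} (ht : 0 < t) (ht1 : t ≤ 1) (hf : ContDiff ℝ ∞ f)
    (h0 : f 0 = 0) (hb : ∀ k ≤ sW m, ∀ x, ‖iteratedFDeriv ℝ k f x‖ ≤ ε) :
    ∀ k ≤ sW m, ∀ x, ‖x‖ ≤ 3 / 8 → ‖iteratedFDeriv ℝ k (sc t f) x‖ ≤ ε := by
  have hε : 0 ≤ ε := (norm_nonneg _).trans (hb 0 (Nat.zero_le _) 0)
  intro k hk x hx
  rw [norm_iter_sc ht hf]
  rcases Nat.eq_zero_or_pos k with rfl | hk0
  · have h1 : ∀ x, ‖fderiv ℝ f x‖ ≤ ε := fun x => by
      have h2 := hb 1 (by unfold sW; omega) x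
      have h3 : ‖iteratedFDeriv ℝ 1 f x‖ = ‖fderiv ℝ f x‖ := by
        rw [← norm_iteratedFDeriv_fderiv, norm_iteratedFDeriv_zero]
      rwa [h3] at h2
    have h4 : ‖f (t • x) - f 0‖ ≤ ε * ‖t • x - 0‖ :=
      Convex.norm_image_sub_le_of_norm_fderiv_le (𝕜 := ℝ) (s := Set.univ)
        (fun y _ => (hf.differentiable (by simp)) y) (fun y _ => h1 y) convex_univ
        (mem_univ _) (mem_univ _)
    rw [h0, sub_zero, sub_zero, norm_smul, Real.norm_eq_abs t, abs_of_pos ht] at h4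
    rw [norm_iteratedFDeriv_zero, pow_zero, mul_one]
    calc t⁻¹ * ‖f (t • x)‖ ≤ t⁻¹ * (ε * (t * ‖x‖)) :=
          mul_le_mul_of_nonneg_left h4 (inv_pos.2 ht).le
      _ = ε * ‖x‖ * (t⁻¹ * t) := by ring
      _ = ε * ‖x‖ := by rw [inv_mul_cancel₀ ht.ne', mul_one]
      _ ≤ ε * 1 := mul_le_mul_of_nonneg_left (by linarith) hε
      _ = ε := mul_one _
  · have h1 : t⁻¹ * t ^ k ≤ 1 := by
      obtain ⟨j, rfl⟩ : ∃ j, k = j + 1 := ⟨k - 1, by omega⟩
      rw [pow_succ, ← mul_assoc, mul_comm t⁻¹, mul_assoc, inv_mul_cancel₀ ht.ne', mul_one]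
      exact pow_le_one₀ ht.le ht1
    calc t⁻¹ * t ^ k * ‖iteratedFDeriv ℝ k f (t • x)‖ ≤ 1 * ε :=
          mul_le_mul h1 (hb k hk _) (norm_nonneg _) zero_le_one
      _ = ε := one_mul _

/-- smallness of the dilation of a function which vanishes at the origin, scaled norms -/
lemma sc_smallS {f : REF.E m → ℝ} {t r ε : ℝ} (hr : 0 < r) (ht : t = 16 / 3 * r) (hε : 0 ≤ ε)
    (hf : ContDiff ℝ ∞ f) (h0 : f 0 = 0) (hb : ∀ k ≤ sW m, 1 ≤ k → ∀ x, ‖x‖ ≤ 2 * r →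
      ‖iteratedFDeriv ℝ k f x‖ ≤ ε * (r * r⁻¹ ^ k)) :
    ∀ k ≤ sW m, ∀ x, ‖x‖ ≤ 3 / 8 →
      ‖iteratedFDeriv ℝ k (sc t f) x‖ ≤ (16 / 3) ^ sW m * ε := by
  have ht0 : 0 < t := by rw [ht]; positivity
  have hC1 : (1:ℝ) ≤ (16 / 3) ^ sW m := one_le_pow₀ (by norm_num)
  intro k hk x hx
  have htx : ‖t • x‖ ≤ 2 * r := by
    rw [norm_smul, Real.norm_eq_abs, abs_of_pos ht0, ht]; nlinarith
  rw [norm_iter_sc ht0 hf]
  rcases Nat.eq_zero_or_pos k with rfl | hk0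
  · have h1 : ∀ x ∈ closedBall (0 : REF.E m) (2 * r), ‖fderiv ℝ f x‖ ≤ ε := fun x hx => by
      have h2 := hb 1 (by unfold sW; omega) le_rfl x (by simpa using hx)
      have h3 : ‖iteratedFDeriv ℝ 1 f x‖ = ‖fderiv ℝ f x‖ := by
        rw [← norm_iteratedFDeriv_fderiv, norm_iteratedFDeriv_zero]
      rw [h3, pow_one, mul_inv_cancel₀ hr.ne', mul_one] at h2
      exact h2
    have h4 : ‖f (t • x) - f 0‖ ≤ ε * ‖t • x - 0‖ :=
      Convex.norm_image_sub_le_of_norm_fderiv_le (𝕜 := ℝ) (s := closedBall (0 : REF.E m) (2 * r))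
        (fun y _ => (hf.differentiable (by simp)) y) h1 (convex_closedBall _ _)
        (by simp; positivity) (by simpa using htx)
    rw [h0, sub_zero, sub_zero, norm_smul, Real.norm_eq_abs t, abs_of_pos ht0] at h4
    rw [norm_iteratedFDeriv_zero, pow_zero, mul_one]
    calc t⁻¹ * ‖f (t • x)‖ ≤ t⁻¹ * (ε * (t * ‖x‖)) :=
          mul_le_mul_of_nonneg_left h4 (inv_pos.2 ht0).le
      _ = ε * ‖x‖ * (t⁻¹ * t) := by ring
      _ = ε * ‖x‖ := by rw [inv_mul_cancel₀ ht0.ne', mul_one]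
      _ ≤ ε * 1 := mul_le_mul_of_nonneg_left (by linarith) hε
      _ ≤ (16 / 3) ^ sW m * ε := by nlinarith
  · have h1 : t⁻¹ * t ^ k * (r * r⁻¹ ^ k) ≤ (16 / 3) ^ sW m := by
      have e1 : t * r⁻¹ = 16 / 3 := by rw [ht, mul_assoc, mul_inv_cancel₀ hr.ne', mul_one]
      have e2 : t⁻¹ * r = 3 / 16 := by
        rw [ht, mul_inv, mul_assoc, inv_mul_cancel₀ hr.ne']; norm_num
      calc t⁻¹ * t ^ k * (r * r⁻¹ ^ k) = (t⁻¹ * r) * (t * r⁻¹) ^ k := by rw [mul_pow]; ring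
        _ = 3 / 16 * (16 / 3) ^ k := by rw [e1, e2]
        _ ≤ 1 * (16 / 3) ^ sW m :=
          mul_le_mul (by norm_num) (pow_le_pow_right₀ (by norm_num) hk) (by positivity) zero_le_one
        _ = _ := one_mul _
    calc t⁻¹ * t ^ k * ‖iteratedFDeriv ℝ k f (t • x)‖ ≤ t⁻¹ * t ^ k * (ε * (r * r⁻¹ ^ k)) :=
          mul_le_mul_of_nonneg_left (hb k hk hk0 _ htx) (by positivity)
      _ = (t⁻¹ * t ^ k * (r * r⁻¹ ^ k)) * ε := by ring
      _ ≤ _ := mul_le_mul_of_nonneg_right h1 hε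

/-- **the cut-off dilation of a scaled reference** -/
theorem refe_scS (m n : ℕ) : ∃ K : ℝ, 1 ≤ K ∧ ∀ (u : Fin n → REF.E m → ℝ) (t r ε : ℝ), 0 < r →
    t = 16 / 3 * r → 0 ≤ ε → RefS ε r u →
    Refe (K * ε) (3 / 16) (fun a x => bc m x * sc t (u a) x) := by
  obtain ⟨K, hK1, hK⟩ := bound_cut m
  refine ⟨K * (16 / 3) ^ sW m, ?_, fun u t r ε hr ht hε hu => ?_⟩
  · have hC1 : (1:ℝ) ≤ (16 / 3) ^ sW m := one_le_pow₀ (by norm_num)
    nlinarith
  have ht0 : 0 < t := by rw [ht]; positivity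
  refine ⟨fun a => ?_, fun a x hx => ?_, fun a k hk x => ?_, fun a x hx => ?_⟩
  · exact ((bc m).contDiff (n := (⊤ : ℕ∞))).mul (contDiff_sc (hu.smooth a))
  · rw [bc_zero hx, zero_mul]
  · rw [mul_assoc]
    exact hK _ _ (contDiff_sc (hu.smooth a)) (by positivity)
      (sc_smallS hr ht hε (hu.smooth a) (hu.zero a) (hu.small a)) k hk x
  · have h1 : ∀ a, (fun x => bc m x * sc t (u a) x) =ᶠ[𝓝 x] sc t (u a) := fun a => by
      have h2 : ∀ᶠ y in 𝓝 x, ‖y‖ < 9 / 32 := by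
        refine (isOpen_lt continuous_norm continuous_const).mem_nhds ?_
        show ‖x‖ < 9 / 32
        linarith
      filter_upwards [h2] with y hy
      rw [bc_one hy.le, one_mul]
    rw [Mop_congr h1, Mop_sc ht0.ne', hu.exact a, mul_zero]
    rw [norm_smul, Real.norm_eq_abs, abs_of_pos ht0, ht]
    nlinarith

/-- references are scaled references -/
lemma refS_of_refe {u : Fin n → REF.E m → ℝ} {ε r : ℝ} (hr : 0 < r) (hr1 : r ≤ 1)
    (hu : Refe ε r u) (h0 : ∀ a, u a 0 = 0) : RefS ε r u where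
  smooth := hu.smooth
  zero := h0
  small a k hk hk1 x _ := by
    refine (hu.small a k hk x).trans ?_
    have hε : 0 ≤ ε := (norm_nonneg _).trans (hu.small a 0 (Nat.zero_le _) 0)
    have h1 : 1 ≤ r * r⁻¹ ^ k := by
      obtain ⟨j, rfl⟩ : ∃ j, k = j + 1 := ⟨k - 1, by omega⟩
      rw [pow_succ, mul_comm, mul_assoc, inv_mul_cancel₀ hr.ne', mul_one]
      exact one_le_pow₀ ((one_le_inv₀ hr).2 hr1)
    nlinarith
  exact := hu.exact

end

end Vale.Agent.P214.STR
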