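import Vale.Agent.P214.STR.Props
import Vale.Agent.P214.STR.Cut

/-!
# P214, block STEP-R: the pieces of `StepStmt → StepRStmt`
-/

open Set Filter Topology MeasureTheory Metric
open scoped RealInnerProductSpace ENNReal ContDiff

set_option linter.all false

namespace Vale.Agent.P214.STR

open WIN

noncomputable section

variable {m n : ℕ}
variable {E : Type*} [NormedAddCommGroup E] [InnerProductSpace ℝ E] [FiniteDimensional ℝ E]
  {T : Submodule ℝ E}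

lemma exists_small (C : ℝ) {a : ℝ} (ha : 0 < a) :
    ∃ ε : ℝ, 0 < ε ∧ ∀ h, 0 < h → h ≤ ε → C * h ^ a ≤ 1 := by
  have h1 : Tendsto (fun h : ℝ => C * h ^ a) (𝓝[>] 0) (𝓝 (C * 0)) := by
    refine Tendsto.const_mul C ?_
    have h2 : Tendsto (fun h : ℝ => h ^ a) (𝓝 0) (𝓝 ((0:ℝ) ^ a)) :=
      (Real.continuousAt_rpow_const 0 a (Or.inr ha.le)).tendsto
    rw [Real.zero_rpow ha.ne'] at h2
    exact h2.mono_left nhdsWithin_le_nhds
  rw [mul_zero] at h1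
  have h3 := h1.eventually (gt_mem_nhds (show (0:ℝ) < 1 by norm_num))
  obtain ⟨e, he, hsub⟩ := mem_nhdsGT_iff_exists_Ioc_subset.1 h3
  exact ⟨e, he, fun h h0 h1 => (hsub ⟨h0, h1⟩).le⟩

/-- comparison of powers with a constant -/
lemma pow_cmp {C h H p q : ℝ} (hH : 0 < H) (hHh : H ≤ h) (hp : 0 ≤ p)
    (hC : C * h ^ (p - q) ≤ 1) (hC0 : 0 ≤ C) : C * H ^ p ≤ h ^ q := by
  have hh : 0 < h := hH.trans_le hHh
  calc C * H ^ p ≤ C * h ^ p := mul_le_mul_of_nonneg_left (Real.rpow_le_rpow hH.le hHh hp) hC0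
    _ = (C * h ^ (p - q)) * h ^ q := by
        rw [mul_assoc, ← Real.rpow_add hh]; ring_nf
    _ ≤ 1 * h ^ q := mul_le_mul_of_nonneg_right hC (Real.rpow_nonneg hh.le _)
    _ = h ^ q := one_mul _

/-- comparison of powers, with room in the exponent -/
lemma pow_cmp' {C h H p q a : ℝ} (hH : 0 < H) (hHh : H ≤ h) (hp : 0 ≤ p) (h1 : h ≤ 1)
    (ha : a ≤ p - q) (hC : C * h ^ a ≤ 1) (hC0 : 0 ≤ C) : C * H ^ p ≤ h ^ q := by
  refine pow_cmp hH hHh hp ?_ hC0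
  have hh : 0 < h := hH.trans_le hHh
  exact (mul_le_mul_of_nonneg_left (Real.rpow_le_rpow_of_exponent_ge hh h1 ha) hC0).trans hC

lemma mul_inv_smul_norm {t : ℝ} (ht : 0 < t) (x : REF.E m) : ‖t⁻¹ • x‖ = t⁻¹ * ‖x‖ := by
  rw [norm_smul, Real.norm_eq_abs, abs_of_pos (inv_pos.2 ht)]

/-- the increments at unit scale and at scale `t` -/
lemma glue_eq {t : ℝ} (ht : 0 < t) {u v v' : REF.E m → ℝ}
    (hv : ∀ x, ‖x‖ ≤ 9 / 32 → v x = sc t u x) {x : REF.E m} (hx : ‖x‖ ≤ 9 / 32) :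
    sc t (fun x => u x + dd t (fun x => v' x - v x) x) x = v' x := by
  have h1 : t⁻¹ • t • x = x := by rw [smul_smul, inv_mul_cancel₀ ht.ne', one_smul]
  have h2 := hv x hx
  unfold sc at h2 ⊢
  unfold dd
  simp only [h1, mul_add]
  rw [← mul_assoc, inv_mul_cancel₀ ht.ne', one_mul, h2]
  ring

/-- exactness of the glued reference -/
lemma exact_glue {t : ℝ} (ht : 0 < t) {u' v' : Fin n → REF.E m → ℝ}
    (hg : ∀ a x, ‖x‖ ≤ 9 / 32 → sc t (u' a) x = v' a x) {R : ℝ} (hR : R ≤ 9 / 32)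
    (hv : ∀ a x, ‖x‖ < R → REF.Mop v' a x = 0) (a : Fin n) (x : REF.E m) (hx : ‖x‖ < t * R) :
    REF.Mop u' a x = 0 := by
  have h4 : ‖t⁻¹ • x‖ < R := by
    rw [mul_inv_smul_norm ht]
    calc t⁻¹ * ‖x‖ < t⁻¹ * (t * R) := mul_lt_mul_of_pos_left hx (inv_pos.2 ht)
      _ = R := by rw [← mul_assoc, inv_mul_cancel₀ ht.ne', one_mul]
  have h5 := hv a _ h4
  have h6 : ∀ a, v' a =ᶠ[𝓝 (t⁻¹ • x)] sc t (u' a) := fun a => by
    have h7 : ∀ᶠ y in 𝓝 (t⁻¹ • x), ‖y‖ < 9 / 32 := by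
      refine (isOpen_lt continuous_norm continuous_const).mem_nhds ?_
      show ‖t⁻¹ • x‖ < 9 / 32
      linarith
    filter_upwards [h7] with y hy
    exact (hg a y hy.le).symm
  rw [Mop_congr h6, Mop_sc ht.ne', smul_smul, mul_inv_cancel₀ ht.ne', one_smul] at h5
  exact (mul_eq_zero.1 h5).resolve_left ht.ne'

variable [MeasurableSpace E] [BorelSpace E]

lemma intCyl_mono {Q : ℕ} {z : E} {R h δ h' δ' : ℝ} {ν : Measure E} {P : E → E →L[ℝ] E}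
    (hI : Skel.IntCyl m Q T z R h δ ν P) (hh : h ≤ h') (hδ : δ ≤ δ') :
    Skel.IntCyl m Q T z R h' δ' ν P := by
  refine ⟨⟨hI.cyl.fin, hI.cyl.meas, hI.cyl.proj, hI.cyl.dimT, hI.cyl.isOpen, ?_, hI.cyl.stat⟩,
    hI.mem, hI.pos, hI.int, hI.mass.trans ?_⟩
  · filter_upwards [hI.cyl.slab] with y hy hyG
    exact (hy hyG).trans hh
  · exact mul_le_mul_of_nonneg_right hδ (pow_nonneg hI.pos.le m)

/-- mass integrals -/
lemma mass_bu (F : Frame m n T) {t : ℝ} (ht : 0 < t) (ψ : REF.E m → ℝ) (ν : Measure E) :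
    ∫ y, ψ (t • F.xc y) ∂(bu m t ν) = t⁻¹ ^ m * ∫ y, ψ (F.xc y) ∂ν := by
  rw [int_bu ht, smul_eq_mul]
  congr 1
  refine integral_congr_ae (Eventually.of_forall fun y => ?_)
  simp only
  rw [xc_smul, smul_smul, mul_inv_cancel₀ ht.ne', one_smul]

lemma gm_congr {u v : Fin n → REF.E m → ℝ} {x : REF.E m} (h : ∀ a, u a =ᶠ[𝓝 x] v a) :
    REF.gm u x = REF.gm v x := by
  have h1 : ∀ i b, REF.pd i (u b) x = REF.pd i (v b) x := fun i b => by
    unfold REF.pd; rw [(h b).fderiv_eq]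
  unfold REF.gm
  simp only [h1]

/-- area integrals -/
lemma area_bu {t R : ℝ} (ht : 0 < t) {u v : Fin n → REF.E m → ℝ}
    (hR : ∀ a x, ‖x‖ < 9 / 32 → v a x = sc t (u a) x) (hR' : R ≤ 9 / 32) {ψ : REF.E m → ℝ}
    (hψ : ∀ x, t * R ≤ ‖x‖ → ψ x = 0) :
    ∫ x, ψ (t • x) * √(REF.gm v x).det ∂μH[m] = t⁻¹ ^ m * ∫ x, ψ x * √(REF.gm u x).det ∂μH[m] := by
  have hH : (μH[m] : Measure (REF.E m)).IsAddHaarMeasure := by
    have h1 : ((Module.finrank ℝ (REF.E m) : ℕ) : ℝ) = m := by simp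
    rw [← h1]
    exact MeasureTheory.isAddHaarMeasure_hausdorffMeasure
  have h2 : ∀ x, ψ (t • x) * √(REF.gm v x).det = ψ (t • x) * √(REF.gm u (t • x)).det := by
    intro x
    by_cases hx : t * R ≤ ‖t • x‖
    · rw [hψ _ hx, zero_mul, zero_mul]
    · have h3 : ‖x‖ < 9 / 32 := by
        rw [not_le, norm_smul, Real.norm_eq_abs, abs_of_pos ht] at hx
        exact (lt_of_mul_lt_mul_left hx ht.le).trans_le hR'
      have h4 : ∀ a, v a =ᶠ[𝓝 x] sc t (u a) := fun a => by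
        have h7 : ∀ᶠ y in 𝓝 x, ‖y‖ < 9 / 32 :=
          (isOpen_lt continuous_norm continuous_const).mem_nhds h3
        filter_upwards [h7] with y hy
        exact hR a y hy
      rw [gm_congr h4, gm_sc ht.ne']
  simp only [h2]
  rw [Measure.integral_comp_smul (μH[m] : Measure (REF.E m))
    (fun x => ψ x * √(REF.gm u x).det) t]
  have h5 : Module.finrank ℝ (REF.E m) = m := by simp
  rw [h5, smul_eq_mul, abs_of_pos (inv_pos.2 (pow_pos ht m)), inv_pow]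

/-- the planar excess off the bad set -/
lemma exc_off {t R' τ : ℝ} (ht : 0 < t) {ν : Measure E} {P : E → E →L[ℝ] E} {Bad : Set E}
    (hB : ∀ x ∈ T, x ∉ Bad → ∀ s, 0 < s → ‖x‖ + s < R' →
      Skel.exc T (bu m t ν) (buP t P) x s ≤ τ * s ^ m)
    {x : E} (hx : x ∈ T) (hxB : x ∉ {x | t⁻¹ • x ∈ Bad}) {s : ℝ} (hs : 0 < s)
    (hxs : ‖x‖ + s < t * R') : Skel.exc T ν P x s ≤ τ * s ^ m := by
  have h1 : ‖t⁻¹ • x‖ + t⁻¹ * s < R' := by
    rw [norm_smul, Real.norm_eq_abs, abs_of_pos (inv_pos.2 ht), ← mul_add]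
    calc t⁻¹ * (‖x‖ + s) < t⁻¹ * (t * R') := mul_lt_mul_of_pos_left hxs (inv_pos.2 ht)
      _ = R' := by rw [← mul_assoc, inv_mul_cancel₀ ht.ne', one_mul]
  have h2 := hB (t⁻¹ • x) (T.smul_mem _ hx) hxB (t⁻¹ * s) (mul_pos (inv_pos.2 ht) hs) h1
  have h3 : t * (t⁻¹ * s) = s := by rw [← mul_assoc, mul_inv_cancel₀ ht.ne', one_mul]
  rw [exc_bu ht, h3, mul_pow] at h2
  have h4 : t⁻¹ ^ m * Skel.exc T ν P x s ≤ t⁻¹ ^ m * (τ * s ^ m) := by
    calc _ ≤ _ := h2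
      _ = _ := by ring
  exact le_of_mul_le_mul_left h4 (pow_pos (inv_pos.2 ht) m)

/-- the weak integrals -/
lemma weak_glue (F : Frame m n T) {t R : ℝ} (ht : 0 < t) (hR : R ≤ 9 / 32)
    {u' v' : Fin n → REF.E m → ℝ} (hg : ∀ a x, ‖x‖ ≤ 9 / 32 → sc t (u' a) x = v' a x)
    {φ : Fin n → REF.E m → ℝ} (hφ : ∀ a x, t * R ≤ ‖x‖ → φ a x = 0) (ν : Measure E) :
    ∫ y, ∑ a, φ a (t • F.xc y) * F.ht v' a y ∂(bu m t ν)
      = t⁻¹ ^ (m + 1) * ∫ y, ∑ a, φ a (F.xc y) * F.ht u' a y ∂ν := by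
  rw [int_bu ht, smul_eq_mul, pow_succ, mul_assoc]
  congr 1
  rw [← integral_const_mul]
  refine integral_congr_ae (Eventually.of_forall fun y => ?_)
  simp only
  rw [Finset.mul_sum]
  refine Finset.sum_congr rfl fun a _ => ?_
  rw [xc_smul, smul_smul, mul_inv_cancel₀ ht.ne', one_smul]
  by_cases hy : ‖F.xc y‖ < t * R
  · have h7 : ‖F.xc (t⁻¹ • y)‖ ≤ 9 / 32 := by
      rw [xc_smul, mul_inv_smul_norm ht]
      calc t⁻¹ * ‖F.xc y‖ ≤ t⁻¹ * (t * R) :=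
            mul_le_mul_of_nonneg_left hy.le (inv_pos.2 ht).le
        _ = R := by rw [← mul_assoc, inv_mul_cancel₀ ht.ne', one_mul]
        _ ≤ 9 / 32 := hR
    have h8 : F.ht v' a (t⁻¹ • y) = F.ht (fun a => sc t (u' a)) a (t⁻¹ • y) := by
      unfold Frame.ht
      simp only [hg a _ h7]
    rw [h8, ht_sc F ht.ne']
    ring
  · rw [hφ a _ (not_lt.1 hy)]; ring

/-- test functions -/
lemma tst_dil {t r ρ ρ' M : ℝ} (ht : 0 < t) (hr : 0 < r) {φ : Fin n → REF.E m → ℝ}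
    (hφ : TstR (sW m) r ρ M φ) (hρ : ρ ≤ t * ρ') (htr : t * r⁻¹ = 16 / 3) :
    Tst (sW m) ρ' ((16 / 3) ^ sW m * M) (fun a x => φ a (t • x)) := by
  refine ⟨fun a => (hφ.smooth a).comp (contDiff_id.const_smul t), fun a x hx => ?_,
    fun a k hk x => ?_⟩
  · refine hφ.supp a _ ?_
    rw [norm_smul, Real.norm_eq_abs, abs_of_pos ht]
    exact hρ.trans (mul_le_mul_of_nonneg_left hx ht.le)
  · have hk' : ContDiff ℝ k (φ a) := (hφ.smooth a).of_le (by exact_mod_cast le_top)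
    rw [iteratedFDeriv_comp_const_smul t hk', norm_smul, Real.norm_eq_abs,
      abs_of_pos (pow_pos ht k)]
    have hM0 : 0 ≤ M := by
      have := hφ.bd a 0 (Nat.zero_le _) 0
      rw [pow_zero, mul_one] at this
      exact (norm_nonneg _).trans this
    calc t ^ k * ‖iteratedFDeriv ℝ k (φ a) (t • x)‖ ≤ t ^ k * (M * r⁻¹ ^ k) :=
          mul_le_mul_of_nonneg_left (hφ.bd a k hk _) (pow_nonneg ht.le k)
      _ = M * (t * r⁻¹) ^ k := by rw [mul_pow]; ring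
      _ = (16 / 3) ^ k * M := by rw [htr]; ring
      _ ≤ (16 / 3) ^ sW m * M :=
          mul_le_mul_of_nonneg_right (pow_le_pow_right₀ (by norm_num) hk) hM0

/-- the bad set -/
lemma bad_dil {t : ℝ} (ht : 0 < t) (ν : Measure E) {Bad : Set E} {b : ℝ}
    (hb : 0 ≤ b) (hB : μH[m] (Bad ∩ (T : Set E)) + (bu m t ν) (T.starProjection ⁻¹' Bad)
      ≤ ENNReal.ofReal b) :
    μH[m] ({x | t⁻¹ • x ∈ Bad} ∩ (T : Set E)) + ν (T.starProjection ⁻¹' {x | t⁻¹ • x ∈ Bad})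
      ≤ ENNReal.ofReal (t ^ m * b) := by
  have h1 : {x | t⁻¹ • x ∈ Bad} ∩ (T : Set E) = SCALE.dil (0:E) t '' (Bad ∩ (T : Set E)) := by
    ext x
    constructor
    · rintro ⟨hx1, hx2⟩
      refine ⟨t⁻¹ • x, ⟨hx1, T.smul_mem _ hx2⟩, ?_⟩
      rw [dil_zero, smul_smul, mul_inv_cancel₀ ht.ne', one_smul]
    · rintro ⟨y, ⟨hy1, hy2⟩, rfl⟩
      rw [dil_zero]
      refine ⟨?_, T.smul_mem _ hy2⟩
      show t⁻¹ • t • y ∈ Bad
      rwa [smul_smul, inv_mul_cancel₀ ht.ne', one_smul]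
  have h2 : μH[m] ({x | t⁻¹ • x ∈ Bad} ∩ (T : Set E))
      = ENNReal.ofReal (t ^ m) * μH[m] (Bad ∩ (T : Set E)) := by
    rw [h1, SCALE.hausdorff_image_dil m 0 ht]
  have h3 : (bu m t ν) (T.starProjection ⁻¹' Bad)
      = ENNReal.ofReal (t⁻¹ ^ m) * ν (T.starProjection ⁻¹' {x | t⁻¹ • x ∈ Bad}) := by
    rw [SCALE.dilM_apply m (inv_pos.2 ht)]
    congr 2
    ext y
    simp only [mem_preimage, dil_zero, map_smul, mem_setOf_eq]
  have h4 : ENNReal.ofReal (t ^ m) * ENNReal.ofReal (t⁻¹ ^ m) = 1 := by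
    rw [← ENNReal.ofReal_mul (pow_nonneg ht.le m), ← mul_pow, mul_inv_cancel₀ ht.ne', one_pow,
      ENNReal.ofReal_one]
  calc μH[m] ({x | t⁻¹ • x ∈ Bad} ∩ (T : Set E))
        + ν (T.starProjection ⁻¹' {x | t⁻¹ • x ∈ Bad})
      = ENNReal.ofReal (t ^ m) * (μH[m] (Bad ∩ (T : Set E))
          + (bu m t ν) (T.starProjection ⁻¹' Bad)) := by
        rw [h2, h3, mul_add, ← mul_assoc (ENNReal.ofReal (t ^ m)) (ENNReal.ofReal (t⁻¹ ^ m)),
          h4, one_mul]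
    _ ≤ ENNReal.ofReal (t ^ m) * ENNReal.ofReal b := by gcongr
    _ = ENNReal.ofReal (t ^ m * b) := (ENNReal.ofReal_mul (pow_nonneg ht.le m)).symm

/-- the points of high density -/
lemma points_dil {Q : ℕ} (F : Frame m n T) {t R' b : ℝ} (ht : 0 < t) (hR' : R' ≤ 9 / 32)
    {u' v' : Fin n → REF.E m → ℝ} (hg : ∀ a x, ‖x‖ ≤ 9 / 32 → sc t (u' a) x = v' a x)
    {ν : Measure E} {Bad : Set E}
    (hB : ∀ z ∈ (bu m t ν).support, ‖T.starProjection z‖ < R' → T.starProjection z ∉ Bad →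
      HighD m Q T (bu m t ν) (3 / 16) z → ‖KMS.rel T (F.lift v') z‖ ≤ b)
    {z : E} (hz : z ∈ ν.support) (hz1 : ‖T.starProjection z‖ < t * R')
    (hz2 : T.starProjection z ∉ {x | t⁻¹ • x ∈ Bad}) (hz3 : HighD m Q T ν (t * (3 / 16)) z) :
    ‖KMS.rel T (F.lift u') z‖ ≤ t * b := by
  have h1 : ‖T.starProjection (t⁻¹ • z)‖ < R' := by
    rw [map_smul, norm_smul, Real.norm_eq_abs, abs_of_pos (inv_pos.2 ht)]
    calc t⁻¹ * ‖T.starProjection z‖ < t⁻¹ * (t * R') :=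
          mul_lt_mul_of_pos_left hz1 (inv_pos.2 ht)
      _ = R' := by rw [← mul_assoc, inv_mul_cancel₀ ht.ne', one_mul]
  have h2 := hB (t⁻¹ • z) (support_bu ht hz) h1 ?_ (HighD_bu ht hz3)
  · have h3 : KMS.rel T (F.lift v') (t⁻¹ • z) = t⁻¹ • KMS.rel T (F.lift u') z := by
      rw [← rel_sc F ht.ne']
      refine rel_congr F fun a => ?_
      rw [hg a _ ?_]
      rw [norm_xc]
      exact h1.le.trans hR'
    rw [h3, norm_smul, Real.norm_eq_abs, abs_of_pos (inv_pos.2 ht)] at h2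
    calc ‖KMS.rel T (F.lift u') z‖ = t * (t⁻¹ * ‖KMS.rel T (F.lift u') z‖) := by
          rw [← mul_assoc, mul_inv_cancel₀ ht.ne', one_mul]
      _ ≤ t * b := mul_le_mul_of_nonneg_left h2 ht.le
  · rw [map_smul]; exact hz2

end

end Vale.Agent.P214.STR
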