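import Vale.Agent.P214.STR.Parts

/-!
# P214, block STEP-R: `StepStmt → StepRStmt`
-/

open Set Filter Topology MeasureTheory Metric
open scoped RealInnerProductSpace ENNReal ContDiff

set_option linter.all false

namespace Vale.Agent.P214.STR

open WIN

noncomputable section

variable {m n : ℕ}
variable {E : Type*} [NormedAddCommGroup E] [InnerProductSpace ℝ E] [FiniteDimensional ℝ E]
  {T : Submodule ℝ E} [MeasurableSpace E] [BorelSpace E]

/-- one step at unit scale, transported to scale `t` -/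
lemma out_of_unit {Q : ℕ} (F : Frame m n T) {t r H h θ θs cs c₀ c₁ p τ C : ℝ} (hr : 0 < r)
    (ht : t = 16 / 3 * r) (hθs : θs = 3 / 16 * θ) (hθ0 : 0 ≤ θ) (hC : C = (16 / 3) ^ (m + 2 + sW m))
    {u v v' : Fin n → REF.E m → ℝ} {ν : Measure E} {P : E → E →L[ℝ] E} (hH' : 0 < H) (hh : 0 ≤ h)
    (hus : ∀ a, ContDiff ℝ ∞ (u a)) (hvs : ∀ a, ContDiff ℝ ∞ (v a))
    (hveq : ∀ a x, ‖x‖ ≤ 9 / 32 → v a x = sc t (u a) x)
    (hv's : ∀ a, ContDiff ℝ ∞ (v' a)) (hv'o : ∀ a x, 3 / 16 ≤ ‖x‖ → v' a x = v a x)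
    (hv'd : ∀ a, ∀ k ≤ sW m, ∀ x,
      ‖iteratedFDeriv ℝ k (fun x => v' a x - v a x) x‖ ≤ H ^ (1 / 2 - p / cs))
    (hv'e : ∀ a x, ‖x‖ < 3 / 16 - 5 * θs → REF.Mop v' a x = 0)
    (hv'w : ∀ (φ : Fin n → REF.E m → ℝ) (M : ℝ), Tst (sW m) (3 / 16 - 5 * θs) M φ →
      |∫ y, ∑ a, φ a (F.xc y) * F.ht v' a y ∂(bu m t ν)| ≤ H ^ (1 - p / cs) * M)
    (hB : ∃ Bad : Set E, MeasurableSet Bad ∧
      μH[m] (Bad ∩ (T : Set E)) + (bu m t ν) (T.starProjection ⁻¹' Bad)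
        ≤ ENNReal.ofReal (H ^ cs) ∧
      (∀ x ∈ T, x ∉ Bad → ∀ s, 0 < s → ‖x‖ + s < 3 / 16 - 7 * θs →
        Skel.exc T (bu m t ν) (buP t P) x s ≤ τ * s ^ m) ∧
      ∀ z ∈ (bu m t ν).support, ‖T.starProjection z‖ < 3 / 16 - 7 * θs → T.starProjection z ∉ Bad →
        HighD m Q T (bu m t ν) (3 / 16) z → ‖KMS.rel T (F.lift v') z‖ ≤ H ^ (1 / 2 + cs))
    (h1 : C * H ^ (1 / 2 - p / cs) ≤ h ^ (1 / 2 - c₁ / c₀))
    (h2 : C * H ^ (1 - p / cs) ≤ h ^ (1 - c₁ / c₀)) (h3 : C * H ^ cs ≤ h ^ c₀)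
    (h4 : C * H ^ (1 / 2 + cs) ≤ h ^ (1 / 2 + c₀)) :
    ∃ u' : Fin n → REF.E m → ℝ, StepOut m n Q T F u u' c₀ c₁ τ r h θ ν P := by
  have hH : 0 ≤ H := hH'.le
  have ht0 : 0 < t := by rw [ht]; positivity
  have htr : t * (3 / 16) = r := by rw [ht]; ring
  have htr' : t * r⁻¹ = 16 / 3 := by rw [ht, mul_assoc, mul_inv_cancel₀ hr.ne', mul_one]
  have hC1 : (1:ℝ) ≤ C := by rw [hC]; exact one_le_pow₀ (by norm_num)
  have hCpow : ∀ k, k ≤ m + 2 + sW m → (16 / 3 : ℝ) ^ k ≤ C := fun k hk => by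
    rw [hC]; exact pow_le_pow_right₀ (by norm_num) hk
  set u' : Fin n → REF.E m → ℝ := fun a x => u a x + dd t (fun x => v' a x - v a x) x with hu'
  have hdif : ∀ a, ContDiff ℝ ∞ (fun x => v' a x - v a x) := fun a => (hv's a).sub (hvs a)
  have hglue : ∀ a x, ‖x‖ ≤ 9 / 32 → sc t (u' a) x = v' a x := fun a x hx =>
    glue_eq ht0 (hveq a) hx
  have hinc : ∀ a x, u' a x - u a x = dd t (fun x => v' a x - v a x) x := fun a x => by
    simp only [hu']; ring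
  have hinc' : ∀ a, (fun x => u' a x - u a x) = dd t (fun x => v' a x - v a x) := fun a => by
    funext x; exact hinc a x
  have hR : (3 / 16 - 5 * θs : ℝ) ≤ 9 / 32 := by rw [hθs]; linarith
  have hR7 : (3 / 16 - 7 * θs : ℝ) ≤ 9 / 32 := by rw [hθs]; linarith
  have hrad : t * (3 / 16 - 5 * θs) = r * (1 - 5 * θ) := by rw [hθs, ← htr]; ring
  have hrad7 : t * (3 / 16 - 7 * θs) = r * (1 - 7 * θ) := by rw [hθs, ← htr]; ring
  refine ⟨u', ⟨fun a => (hus a).add (contDiff_dd (hdif a)), fun a x hx => ?_,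
    fun a k hk x => ?_, fun a x hx => ?_, fun φ M hφ => ?_, ?_⟩⟩
  · have h5 : 3 / 16 ≤ ‖t⁻¹ • x‖ := by
      rw [mul_inv_smul_norm ht0]
      calc (3 / 16 : ℝ) = t⁻¹ * (t * (3 / 16)) := by
            rw [← mul_assoc, inv_mul_cancel₀ ht0.ne', one_mul]
        _ = t⁻¹ * r := by rw [htr]
        _ ≤ t⁻¹ * ‖x‖ := mul_le_mul_of_nonneg_left hx (inv_pos.2 ht0).le
    have h6 := hinc a x
    unfold dd at h6
    simp only [hv'o a _ h5, sub_self, mul_zero] at h6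
    linarith
  · rw [hinc' a, norm_iter_dd ht0 (hdif a)]
    have h5 := hv'd a k hk (t⁻¹ • x)
    have h8 : t * t⁻¹ ^ k ≤ C * (r * r⁻¹ ^ k) := by
      have h9 : t⁻¹ ^ k ≤ r⁻¹ ^ k := by
        refine pow_le_pow_left₀ (inv_pos.2 ht0).le ?_ k
        rw [inv_le_inv₀ ht0 hr, ht]
        linarith
      have h10 : (16 / 3 : ℝ) ≤ C := by
        have := hCpow 1 (by omega)
        rwa [pow_one] at this
      calc t * t⁻¹ ^ k ≤ t * r⁻¹ ^ k := mul_le_mul_of_nonneg_left h9 ht0.le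
        _ = 16 / 3 * (r * r⁻¹ ^ k) := by rw [ht]; ring
        _ ≤ C * (r * r⁻¹ ^ k) := mul_le_mul_of_nonneg_right h10 (by positivity)
    calc t * t⁻¹ ^ k * ‖iteratedFDeriv ℝ k (fun x => v' a x - v a x) (t⁻¹ • x)‖
        ≤ (C * (r * r⁻¹ ^ k)) * H ^ (1 / 2 - p / cs) :=
          mul_le_mul h8 h5 (norm_nonneg _) (by positivity)
      _ = r * r⁻¹ ^ k * (C * H ^ (1 / 2 - p / cs)) := by ring
      _ ≤ r * r⁻¹ ^ k * h ^ (1 / 2 - c₁ / c₀) := mul_le_mul_of_nonneg_left h1 (by positivity)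
  · exact exact_glue ht0 hglue hR hv'e a x (by rw [hrad]; exact hx)
  · have h5 := hv'w _ _ (tst_dil ht0 hr hφ (by rw [hrad]) htr')
    have h6 := weak_glue F ht0 hR hglue (φ := φ) (by rw [hrad]; exact hφ.supp) ν
    rw [h6, abs_mul, abs_of_pos (pow_pos (inv_pos.2 ht0) _)] at h5
    have h7 : |∫ y, ∑ a, φ a (F.xc y) * F.ht u' a y ∂ν|
        ≤ t ^ (m + 1) * (H ^ (1 - p / cs) * ((16 / 3) ^ sW m * M)) := by
      calc |∫ y, ∑ a, φ a (F.xc y) * F.ht u' a y ∂ν|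
          = t ^ (m + 1) * (t⁻¹ ^ (m + 1) * |∫ y, ∑ a, φ a (F.xc y) * F.ht u' a y ∂ν|) := by
            rw [← mul_assoc, ← mul_pow, mul_inv_cancel₀ ht0.ne', one_pow, one_mul]
        _ ≤ _ := mul_le_mul_of_nonneg_left h5 (pow_nonneg ht0.le _)
    have h8 : (16 / 3 : ℝ) ^ (m + 1) * (16 / 3) ^ sW m ≤ C := by
      rw [← pow_add]; exact hCpow _ (by omega)
    by_cases hM : 0 ≤ M
    · calc |∫ y, ∑ a, φ a (F.xc y) * F.ht u' a y ∂ν|
          ≤ t ^ (m + 1) * (H ^ (1 - p / cs) * ((16 / 3) ^ sW m * M)) := h7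
        _ = r ^ (m + 1) * M * (((16 / 3) ^ (m + 1) * (16 / 3) ^ sW m) * H ^ (1 - p / cs)) := by
            rw [ht, mul_pow]; ring
        _ ≤ r ^ (m + 1) * M * (C * H ^ (1 - p / cs)) := by
            refine mul_le_mul_of_nonneg_left ?_ (by positivity)
            exact mul_le_mul_of_nonneg_right h8 (Real.rpow_nonneg hH _)
        _ ≤ r ^ (m + 1) * M * h ^ (1 - c₁ / c₀) := mul_le_mul_of_nonneg_left h2 (by positivity)
        _ = _ := by ring
    · exfalso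
      have h9 := (abs_nonneg _).trans h7
      have h10 : 0 < H ^ (1 - p / cs) := Real.rpow_pos_of_pos hH' _
      have h11 : t ^ (m + 1) * (H ^ (1 - p / cs) * ((16 / 3) ^ sW m * M)) < 0 := by
        have : (16 / 3 : ℝ) ^ sW m * M < 0 := mul_neg_of_pos_of_neg (by positivity) (not_le.1 hM)
        exact mul_neg_of_pos_of_neg (by positivity) (mul_neg_of_pos_of_neg h10 this)
      linarith
  · obtain ⟨Bad, hBm, hBs, hBe, hBz⟩ := hB
    have hts : Measurable fun x : E => t⁻¹ • x := measurable_const_smul _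
    refine ⟨{x | t⁻¹ • x ∈ Bad}, hts hBm, ?_, fun x hx hxB s hs hxs => ?_,
      fun z hz hz1 hz2 hz3 => ?_⟩
    · refine (bad_dil ht0 ν (Real.rpow_nonneg hH _) hBs).trans (ENNReal.ofReal_le_ofReal ?_)
      have h8 : (16 / 3 : ℝ) ^ m ≤ C := hCpow _ (by omega)
      calc t ^ m * H ^ cs = r ^ m * ((16 / 3) ^ m * H ^ cs) := by rw [ht, mul_pow]; ring
        _ ≤ r ^ m * (C * H ^ cs) := by
            refine mul_le_mul_of_nonneg_left ?_ (by positivity)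
            exact mul_le_mul_of_nonneg_right h8 (Real.rpow_nonneg hH _)
        _ ≤ r ^ m * h ^ c₀ := mul_le_mul_of_nonneg_left h3 (by positivity)
        _ = _ := by ring
    · exact exc_off ht0 hBe hx hxB hs (by rw [hrad7]; exact hxs)
    · have h5 := points_dil F ht0 hR7 hglue hBz hz (by rw [hrad7]; exact hz1) hz2
        (by rw [htr]; exact hz3)
      refine h5.trans ?_
      have h10 : (16 / 3 : ℝ) ≤ C := by
        have := hCpow 1 (by omega)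
        rwa [pow_one] at this
      calc t * H ^ (1 / 2 + cs) = r * (16 / 3 * H ^ (1 / 2 + cs)) := by rw [ht]; ring
        _ ≤ r * (C * H ^ (1 / 2 + cs)) := by
            refine mul_le_mul_of_nonneg_left ?_ hr.le
            exact mul_le_mul_of_nonneg_right h10 (Real.rpow_nonneg hH _)
        _ ≤ r * h ^ (1 / 2 + c₀) := mul_le_mul_of_nonneg_left h4 hr.le

/-- **STEP at every radius**, scaled references -/
theorem stepRS {Q : ℕ} (hS : StepStmt E m n Q) : StepRSStmt E m n Q := by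
  obtain ⟨cs, hcs, hcs8, hS⟩ := hS
  obtain ⟨K, hK1, hK⟩ := refe_scS m n
  have hc₀pos : 0 < cs / 4 := by positivity
  refine ⟨cs / 4, hc₀pos, by linarith, fun c₁ hc₁ hc₁' τ hτ => ?_⟩
  set c₀ : ℝ := cs / 4 with hc₀
  have hc₁c : 2 * c₁ ≤ cs ^ 2 := by nlinarith
  obtain ⟨εs, hεs, hS⟩ := hS (2 * c₁) (by positivity) hc₁c τ hτ
  set C : ℝ := (16 / 3) ^ (m + 2 + sW m) with hC
  have hC1 : (1:ℝ) ≤ C := one_le_pow₀ (by norm_num)
  have hdiv : 2 * c₁ / cs ≤ 1 / 8 := by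
    rw [div_le_iff₀ hcs]
    nlinarith
  have hdiv' : c₁ / c₀ = 2 * (2 * c₁ / cs) := by
    rw [hc₀]; field_simp; ring
  have hpos1 : 0 < 2 * c₁ / cs := by positivity
  obtain ⟨e1, he1, h1⟩ := exists_small (C := C) (a := c₁) hc₁
  obtain ⟨e2, he2, h2⟩ := exists_small (C := C) (a := 2 * c₁ / cs) hpos1
  obtain ⟨e3, he3, h3⟩ := exists_small (C := C) (a := cs / 2) (by positivity)
  obtain ⟨ε, hε0, hεe1, hεe2, hεe3, hε1, hεK⟩ : ∃ ε : ℝ, 0 < ε ∧ ε ≤ e1 ∧ ε ≤ e2 ∧ ε ≤ e3 ∧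
      ε ≤ 1 ∧ ε ≤ εs / K := by
    have h0 : 0 < εs / K := by positivity
    refine ⟨min (min (min e1 e2) (min e3 1)) (εs / K), lt_min (lt_min (lt_min he1 he2)
      (lt_min he3 one_pos)) h0, ?_, ?_, ?_, ?_, min_le_right _ _⟩
    · exact (min_le_left _ _).trans ((min_le_left _ _).trans (min_le_left _ _))
    · exact (min_le_left _ _).trans ((min_le_left _ _).trans (min_le_right _ _))
    · exact (min_le_left _ _).trans ((min_le_right _ _).trans (min_le_left _ _))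
    · exact (min_le_left _ _).trans ((min_le_right _ _).trans (min_le_right _ _))
  have hKε : K * ε ≤ εs := by
    rw [le_div_iff₀ (by linarith)] at hεK
    linarith
  have hεεs : ε ≤ εs := by nlinarith
  refine ⟨ε, hε0, hε1, fun T F u r h θ ν P hu hr hI hexc hh hh0 hhε hθ hθ1 => ?_⟩
  have hh1 : h ≤ 1 := hhε.trans hε1
  -- the scale
  set t : ℝ := 16 / 3 * r with ht
  have ht0 : 0 < t := by positivity
  have htr : t * (3 / 16) = r := by rw [ht]; ring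
  have htr2 : t * (3 / 8) = 2 * r := by rw [ht]; ring
  set v : Fin n → REF.E m → ℝ := fun a x => bc m x * sc t (u a) x with hv
  have hvR : Refe εs (3 / 16) v := by
    have h4 := hK u t r ε hr ht hε0.le hu
    exact ⟨h4.smooth, h4.supp, fun a k hk x => (h4.small a k hk x).trans hKε, h4.exact⟩
  have hveq : ∀ a x, ‖x‖ ≤ 9 / 32 → v a x = sc t (u a) x := fun a x hx => by
    simp only [hv]; rw [bc_one hx, one_mul]
  -- the blow-up
  have hIb : Skel.IntCyl m Q T 0 (3 / 8) εs εs (bu m t ν) (buP t P) := by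
    have h4 : Skel.IntCyl m Q T 0 (t * (3 / 8)) (t * (3 / 16 * ε)) ε ν P := by
      rw [htr2, ← mul_assoc, htr, mul_comm r]; exact hI
    exact intCyl_mono (intCyl_bu ht0 h4) (by linarith) hεεs
  have hexcb : Skel.exc T (bu m t ν) (buP t P) 0 (3 / 8) ≤ εs := by
    have h4 := exc_bu (m := m) (T := T) ht0 ν P 0 (3 / 8)
    rw [smul_zero, htr2] at h4
    rw [h4]
    calc t⁻¹ ^ m * Skel.exc T ν P 0 (2 * r) ≤ t⁻¹ ^ m * (ε * r ^ m) :=
          mul_le_mul_of_nonneg_left hexc (pow_nonneg (inv_nonneg.2 ht0.le) m)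
      _ = ε * (t⁻¹ * r) ^ m := by rw [mul_pow]; ring
      _ ≤ ε * 1 := by
          refine mul_le_mul_of_nonneg_left (pow_le_one₀ (by positivity) ?_) hε0.le
          rw [← htr, ← mul_assoc, inv_mul_cancel₀ ht0.ne', one_mul]; norm_num
      _ ≤ εs := by rw [mul_one]; exact hεεs
  set H : ℝ := hE T (F.lift v) (bu m t ν) (3 / 16) with hH
  have hHh : H = (3 / 16) ^ (m + 2) * h := by
    have h4 := hE_bu F ht0 u v ν (R := 3 / 16) fun a x hx => hveq a x (by linarith)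
    rw [hH, h4, htr, hh, hN]
    have h5 : t⁻¹ = 3 / 16 * r⁻¹ := by
      rw [ht, mul_inv]; norm_num
    rw [h5, mul_pow, inv_pow]
    ring
  have hHpos : 0 < H := by rw [hHh]; positivity
  have hHle : H ≤ h := by
    rw [hHh]
    have : (3 / 16 : ℝ) ^ (m + 2) ≤ 1 := pow_le_one₀ (by norm_num) (by norm_num)
    nlinarith
  -- the collars
  have hθ0 : 0 < θ := (Real.rpow_pos_of_pos hh0 _).trans_le hθ
  have hθs : H ^ (2 * c₁) ≤ 3 / 16 * θ := by
    have h4 : C * H ^ (2 * c₁) ≤ h ^ c₁ := by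
      refine pow_cmp' hHpos hHle (by positivity) hh1 (a := c₁) (by linarith) ?_ (by linarith)
      exact h1 h hh0 (hhε.trans hεe1)
    have h5 : (16 / 3 : ℝ) ≤ C := by
      rw [hC, show m + 2 + sW m = 1 + (m + 1 + sW m) by ring, pow_add, pow_one]
      have : (1:ℝ) ≤ (16 / 3) ^ (m + 1 + sW m) := one_le_pow₀ (by norm_num)
      nlinarith
    have h6 : 16 / 3 * H ^ (2 * c₁) ≤ θ :=
      (mul_le_mul_of_nonneg_right h5 (Real.rpow_nonneg hHpos.le _)).trans (h4.trans hθ)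
    linarith
  obtain ⟨hW0, v', hv's, hv'o, hv'd, hv'e, hv'w, hB⟩ := hS T F v (3 / 16) εs H (3 / 16 * θ)
    (bu m t ν) (buP t P) hvR (by norm_num) le_rfl le_rfl hIb hexcb hH hHpos
    (hHle.trans (hhε.trans hεεs)) hθs (by linarith)
  -- powers
  have hp1 : C * H ^ (1 / 2 - 2 * c₁ / cs) ≤ h ^ (1 / 2 - c₁ / c₀) :=
    pow_cmp' hHpos hHle (by linarith) hh1 (a := 2 * c₁ / cs) (by linarith)
      (h2 h hh0 (hhε.trans hεe2)) (by linarith)
  have hp2 : C * H ^ (1 - 2 * c₁ / cs) ≤ h ^ (1 - c₁ / c₀) :=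
    pow_cmp' hHpos hHle (by linarith) hh1 (a := 2 * c₁ / cs) (by linarith)
      (h2 h hh0 (hhε.trans hεe2)) (by linarith)
  have hp3 : C * H ^ cs ≤ h ^ c₀ :=
    pow_cmp' hHpos hHle hcs.le hh1 (a := cs / 2) (by linarith)
      (h3 h hh0 (hhε.trans hεe3)) (by linarith)
  have hp4 : C * H ^ (1 / 2 + cs) ≤ h ^ (1 / 2 + c₀) :=
    pow_cmp' hHpos hHle (by linarith) hh1 (a := cs / 2) (by linarith)
      (h3 h hh0 (hhε.trans hεe3)) (by linarith)
  refine ⟨fun ψ M hψc hψs hψb => ?_, out_of_unit F hr ht rfl hθ0.le hC hHpos hh0.le hu.smooth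
    hvR.smooth hveq hv's hv'o hv'd hv'e hv'w hB hp1 hp2 hp3 hp4⟩
  -- the mass
  have hrad : t * (3 / 16 - 5 * (3 / 16 * θ)) = r * (1 - 5 * θ) := by rw [← htr]; ring
  have h4 := hW0 (fun x => ψ (t • x)) M (hψc.comp (continuous_const_smul t)) (fun x hx => ?_)
    fun x => hψb _
  · have h5 := mass_bu F ht0 ψ ν
    have h6 := area_bu (m := m) (n := n) ht0 (u := u) (v := v) (R := 3 / 16 - 5 * (3 / 16 * θ))
      (fun a x hx => hveq a x hx.le) (by linarith) (ψ := ψ) (by rw [hrad]; exact hψs)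
    rw [h5, h6] at h4
    have h7 : t⁻¹ ^ m * ∫ y, ψ (F.xc y) ∂ν
        - Q * (t⁻¹ ^ m * ∫ x, ψ x * √(REF.gm u x).det ∂μH[m])
        = t⁻¹ ^ m * (∫ y, ψ (F.xc y) ∂ν - Q * ∫ x, ψ x * √(REF.gm u x).det ∂μH[m]) := by ring
    rw [h7, abs_mul, abs_of_pos (pow_pos (inv_pos.2 ht0) m)] at h4
    have hM : 0 ≤ M := (abs_nonneg _).trans (hψb 0)
    have h8 : (16 / 3 : ℝ) ^ m ≤ C := pow_le_pow_right₀ (by norm_num) (by omega)
    calc |∫ y, ψ (F.xc y) ∂ν - Q * ∫ x, ψ x * √(REF.gm u x).det ∂μH[m]|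
        = t ^ m * (t⁻¹ ^ m * |∫ y, ψ (F.xc y) ∂ν
            - Q * ∫ x, ψ x * √(REF.gm u x).det ∂μH[m]|) := by
          rw [← mul_assoc, ← mul_pow, mul_inv_cancel₀ ht0.ne', one_pow, one_mul]
      _ ≤ t ^ m * (H ^ (1 / 2 - 2 * c₁ / cs) * M) :=
          mul_le_mul_of_nonneg_left h4 (pow_nonneg ht0.le m)
      _ = r ^ m * M * ((16 / 3) ^ m * H ^ (1 / 2 - 2 * c₁ / cs)) := by rw [ht, mul_pow]; ring
      _ ≤ r ^ m * M * (C * H ^ (1 / 2 - 2 * c₁ / cs)) := by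
          refine mul_le_mul_of_nonneg_left ?_ (by positivity)
          exact mul_le_mul_of_nonneg_right h8 (Real.rpow_nonneg hHpos.le _)
      _ ≤ r ^ m * M * h ^ (1 / 2 - c₁ / c₀) := mul_le_mul_of_nonneg_left hp1 (by positivity)
      _ = _ := by ring
  · refine hψs _ ?_
    rw [norm_smul, Real.norm_eq_abs, abs_of_pos ht0, ← hrad]
    exact mul_le_mul_of_nonneg_left hx ht0.le

/-- **STEP at every radius** -/
theorem stepR {Q : ℕ} (hS : StepStmt E m n Q) : StepRStmt E m n Q := by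
  obtain ⟨c₀, h1, h2, H⟩ := stepRS hS
  refine ⟨c₀, h1, h2, fun c₁ hc₁ hc₁' τ hτ => ?_⟩
  obtain ⟨ε, hε, hε1, H'⟩ := H c₁ hc₁ hc₁' τ hτ
  exact ⟨ε, hε, hε1, fun T F u r h θ ν P hu hu0 hr hr3 hI hex hh hh0 hhε hθ hθ1 =>
    H' T F u r h θ ν P (refS_of_refe hr (by linarith) hu hu0) hr hI hex hh hh0 hhε hθ hθ1⟩

end

end Vale.Agent.P214.STR
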